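import Vale.Agent.P064.H444.Graph

namespace Vale.Agent.Results.P064.GroupActions

open Vale.Agent.P064 Vale.Agent.P064.Act

/-- **The second Kahn-Kalai conjecture, for all finite group actions.** -/
theorem result : ∃ C c : ℝ, 0 < C ∧ 0 < c ∧
    -- (1) The second Kahn-Kalai conjecture as posed, and the order of growth of `f(n)`.
    (∀ (n : ℕ) (W : Type*) [Fintype W] (H : SimpleGraph W), 2 ≤ n → Fintype.card W ≤ n → H ≠ ⊥ →
      pc n H ≤ C * pE n H * Real.log n ∧ pE n H ≤ pEt n H ∧ pEt n H ≤ C * pE n H) ∧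
    (∀ (n : ℕ) (f : ℝ), 2 ≤ n →
      (∀ H : SimpleGraph (Fin n), H ≠ ⊥ → pc n H ≤ f * pE n H) → c * Real.log n ≤ f) ∧
    -- (2) Graphs: the logarithm of the number of edges of `H`, and any error probability.
    (∀ (n : ℕ) (W : Type*) [Fintype W] (H : SimpleGraph W), Fintype.card W ≤ n → H ≠ ⊥ →
      pc n H ≤ C * pE n H * Real.log (H.edgeSet.ncard + 1) ∧
      ∀ ε : ℝ, 0 < ε → ε ≤ 1 / 2 → ∀ p : unitInterval,
        C * pE n H * Real.log ((H.edgeSet.ncard + 1) / ε) ≤ p → 1 - ε ≤ probCopy n H p) ∧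
    -- (3) Every finite group acting on a finite set.
    (∀ (G X : Type*) [Group G] [Fintype G] [Fintype X] [DecidableEq X] [MulAction G X]
      (H : Finset X), H.Nonempty →
      IsLeast {p : ℝ | 0 ≤ p ∧ p ≤ 1 ∧ 1 / 2 ≤ probTranslate G H p} (thr G H) ∧
      IsLeast {p : ℝ | 0 ≤ p ∧ p ≤ 1 ∧ ∀ F ⊆ H, 1 / 2 ≤ expTranslates G F p} (expThr G H) ∧
      IsLeast {p : ℝ | 0 ≤ p ∧ p ≤ 1 ∧ ∀ F ⊆ H, (numIn G F H : ℝ) / 2 ≤ expTranslates G F p}
        (expThr' G H) ∧
      expThr G H ≤ thr G H ∧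
      thr G H ≤ C * expThr G H * Real.log (H.card + 1) ∧
      expThr G H ≤ expThr' G H ∧ expThr' G H ≤ C * expThr G H ∧
      ∀ ε : ℝ, 0 < ε → ε ≤ 1 / 2 → ∀ p : ℝ, p ≤ 1 →
        C * expThr G H * Real.log ((H.card + 1) / ε) ≤ p → 1 - ε ≤ probTranslate G H p) ∧
    -- (4) In particular `r`-uniform hypergraphs, with the same constant for all `r`.
    (∀ (n r : ℕ) (H : Finset (Set.powersetCard (Fin n) r)), H.Nonempty →
      thr (Equiv.Perm (Fin n)) H ≤
        C * expThr (Equiv.Perm (Fin n)) H * Real.log (H.card + 1)) := by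
  refine ⟨768 * 2 ^ 72, 1 / 36, by norm_num, by norm_num, ?_, ?_, ?_, ?_, ?_⟩
  · intro n W _ H hn hW hH
    obtain ⟨j⟩ : Nonempty (W ↪ Fin n) :=
      Function.Embedding.nonempty_of_card_le (by rwa [Fintype.card_fin])
    have h0 := pE_nonneg (n := n) H
    have hlog : 0 ≤ Real.log n := Real.log_natCast_nonneg n
    refine ⟨(second_kahn_kalai hn H hH j).trans ?_, pE_le_pEt H j,
      (pEt_le_pE H hH j).trans ?_⟩
    · apply mul_le_mul_of_nonneg_right _ hlog
      apply mul_le_mul_of_nonneg_right _ h0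
      norm_num
    · apply mul_le_mul_of_nonneg_right _ h0
      norm_num
  · intro n f hn hf
    obtain ⟨h1, h2⟩ := lower hn
    have h3 := hf _ h1
    have h4 := pE_pos _ h1 (Function.Embedding.refl (Fin n))
    have h5 := h2.trans h3
    have h6 : (1 / 36 * Real.log n) * pE n (nmat n) ≤ f * pE n (nmat n) := by
      calc (1 / 36 * Real.log n) * pE n (nmat n)
          = 1 / 36 * pE n (nmat n) * Real.log n := by ring
        _ ≤ _ := h5
    exact le_of_mul_le_mul_right h6 h4
  · intro n W _ H hW hH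
    obtain ⟨j⟩ : Nonempty (W ↪ Fin n) :=
      Function.Embedding.nonempty_of_card_le (by rwa [Fintype.card_fin])
    refine ⟨graph_pc hH j, ?_⟩
    intro ε hε0 hε1 p hp
    refine graph_eps hH j hε0 hε1 p (le_trans ?_ hp)
    have h0 := pE_nonneg (n := n) H
    have hlog : 0 ≤ Real.log (((H.edgeSet.ncard : ℝ) + 1) / ε) := by
      apply Real.log_nonneg
      rw [le_div_iff₀ hε0]
      have : (0 : ℝ) ≤ H.edgeSet.ncard := Nat.cast_nonneg _
      linarith
    apply mul_le_mul_of_nonneg_right _ hlog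
    apply mul_le_mul_of_nonneg_right _ h0
    norm_num
  · intro G X _ _ _ _ _ H hH
    have h0 := (expThr_pos G hH).le
    refine ⟨thr_isLeast G H, expThr_isLeast G H, expThr'_isLeast G H, expThr_le_thr G H,
      thr_le G hH, expThr_le_expThr' G H, (expThr'_le_expThr G hH).trans ?_, ?_⟩
    · apply mul_le_mul_of_nonneg_right _ h0
      norm_num
    · intro ε hε0 hε1 p hp1 hp
      refine threshold_eps G hH hε0 hε1 (le_trans ?_ hp) hp1
      have hlog : 0 ≤ Real.log (((H.card : ℝ) + 1) / ε) := by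
        apply Real.log_nonneg
        rw [le_div_iff₀ hε0]
        have : (0 : ℝ) ≤ H.card := Nat.cast_nonneg _
        linarith
      apply mul_le_mul_of_nonneg_right _ hlog
      apply mul_le_mul_of_nonneg_right _ h0
      norm_num
  · intro n r H hH
    exact hyper_pc hH

end Vale.Agent.Results.P064.GroupActions
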