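import Vale.Agent.P064.H825.Graph
import Vale.Agent.P064.H337.Rainbow

namespace Vale.Agent.Results.P064.RobustRainbow

open Vale.Agent.P064 Vale.Agent.P064.H825

/-- **The second Kahn-Kalai conjecture; the copies of `H` are spread; the expectation thresholds
of Kahn-Kalai and Talagrand are `p_E` up to a constant; dense sets of copies; rainbow copies.** -/
theorem result : ∃ C c : ℝ, 0 < C ∧ 0 < c ∧
    -- (1) The second Kahn-Kalai conjecture as posed, and the order of growth of `f(n)`.
    (∀ (n : ℕ) (W : Type*) [Fintype W] (H : SimpleGraph W), 2 ≤ n → Fintype.card W ≤ n → H ≠ ⊥ →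
      pc n H ≤ C * pE n H * Real.log n) ∧
    (∀ (n : ℕ) (f : ℝ), 2 ≤ n →
      (∀ H : SimpleGraph (Fin n), H ≠ ⊥ → pc n H ≤ f * pE n H) → c * Real.log n ≤ f) ∧
    ∀ (n : ℕ) (W : Type*) [Fintype W] (H : SimpleGraph W), Fintype.card W ≤ n → H ≠ ⊥ →
      -- (2) The copies of `H` are spread.
      (∀ F : SimpleGraph (Fin n), ({K ∈ copies n H | F ≤ K}.ncard : ℝ) ≤
        (C * pE n H) ^ F.edgeSet.ncard * (copies n H).ncard) ∧
      -- (3) The integral and the fractional expectation threshold of containing a copy of `H`.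
      (pE n H ≤ expThreshold (containing n H) ∧
        expThreshold (containing n H) ≤ fracExpThreshold (containing n H) ∧
        fracExpThreshold (containing n H) ≤ C * pE n H) ∧
      -- (4) Every dense set of copies.
      (∀ (A : Set (SimpleGraph (Fin n))) (δ ε : ℝ), A ⊆ copies n H → 0 < δ → 0 < ε →
        δ * (copies n H).ncard ≤ A.ncard → ∀ p : unitInterval,
          C * pE n H * Real.log (H.edgeSet.ncard + 1) / (δ * ε) ≤ p → 1 - ε ≤ probMember A p) ∧
      -- (5) Rainbow copies, for every number of colours which is at least the number of edges.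
      (∀ (k : ℕ) (ε : ℝ), H.edgeSet.ncard ≤ k → 0 < ε → ε ≤ 1 / 2 → ∀ p : unitInterval,
        C * pE n H * Real.log ((H.edgeSet.ncard + 1) / ε) ≤ p → 1 - ε ≤ probRainbow n k H p) := by
  refine ⟨1152 * 2 ^ 72, 1 / 36, by norm_num, by norm_num, ?_, ?_, ?_⟩
  · intro n W _ H hn hW hH
    obtain ⟨j⟩ : Nonempty (W ↪ Fin n) :=
      Function.Embedding.nonempty_of_card_le (by rwa [Fintype.card_fin])
    have h0 := pE_nonneg (n := n) H
    have hlog : 0 ≤ Real.log n := Real.log_natCast_nonneg n
    refine (second_kahn_kalai hn H hH j).trans ?_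
    apply mul_le_mul_of_nonneg_right _ hlog
    apply mul_le_mul_of_nonneg_right _ h0
    norm_num
  · intro n f hn hf
    obtain ⟨h1, h2⟩ := lower hn
    have h3 := hf _ h1
    have h4 := pE_pos _ h1 (Function.Embedding.refl (Fin n))
    have h5 := h2.trans h3
    have h6 : (1 / 36 * Real.log n) * pE n (nmat n) ≤ f * pE n (nmat n) := by
      calc (1 / 36 * Real.log n) * pE n (nmat n)
          = 1 / 36 * pE n (nmat n) * Real.log n := by ring
        _ ≤ _ := h5
    exact le_of_mul_le_mul_right h6 h4
  · intro n W _ H hW hH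
    obtain ⟨j⟩ : Nonempty (W ↪ Fin n) :=
      Function.Embedding.nonempty_of_card_le (by rwa [Fintype.card_fin])
    have hpos := Act.pE_pos' hH j
    have hlog : 0 ≤ Real.log ((H.edgeSet.ncard : ℝ) + 1) := by
      apply Real.log_nonneg
      have : (0 : ℝ) ≤ H.edgeSet.ncard := Nat.cast_nonneg _
      linarith
    refine ⟨fun F => ?_, ⟨pE_le_exp H j, exp_le_frac _, (frac_le hH j).trans ?_⟩, ?_, ?_⟩
    · refine (spread hH j F).trans ?_
      refine mul_le_mul_of_nonneg_right (pow_le_pow_left₀ (by positivity) ?_ _)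
        (Nat.cast_nonneg _)
      exact mul_le_mul_of_nonneg_right (by norm_num) hpos.le
    · exact mul_le_mul_of_nonneg_right (by norm_num) hpos.le
    · intro A δ ε hA hδ hε hδA p hp
      refine robust hH j A hA hδ hε hδA p (le_trans ?_ hp)
      refine div_le_div_of_nonneg_right ?_ (by positivity)
      apply mul_le_mul_of_nonneg_right _ hlog
      exact mul_le_mul_of_nonneg_right (by norm_num) hpos.le
    · intro k ε hk hε hε1 p hp
      exact H337.rainbow hW hH hk hε hε1 p hp

end Vale.Agent.Results.P064.RobustRainbow
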